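import Vale.Agent.P197.Specht.Complete

/-!
# P197: fixed and alternating vectors; independence of the tableau; the staircase

A Specht module has a vector fixed by every permutation preserving the rows and one on which the
column group acts by the sign. The module depends only on the shape.
-/

namespace Vale.Agent.P197.Specht

open Equiv Finset

variable {α : Type} [Fintype α] [DecidableEq α] {lam : YoungDiagram}

/-- The row group. -/
def rowGroup (T : α ≃ lam.cells) : Finset (Perm α) := {g | ∀ a, row T (g a) = row T a}

lemma mem_rowGroup {T : α ≃ lam.cells} {g : Perm α} :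
    g ∈ rowGroup T ↔ ∀ a, row T (g a) = row T a := by simp [rowGroup]

/-- A nonzero vector of the Specht module fixed by the row group. -/
theorem exists_row_fixed (T : α ≃ lam.cells) :
    ∃ v ∈ (specht T).toSubmodule, v ≠ 0 ∧ ∀ g ∈ rowGroup T, act α g v = v := by
  refine ⟨∑ h ∈ rowGroup T, act α h (poly T),
    Submodule.sum_mem _ fun h _ => Submodule.subset_span ⟨h, rfl⟩, fun h0 => ?_, fun g hg => ?_⟩
  · have h1 : ∀ h ∈ rowGroup T, act α h (poly T) (row T) = 1 := fun h hh => by
      rw [act_apply, show row T ∘ ⇑h = row T from funext (mem_rowGroup.1 hh), poly_row]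
    have := DFunLike.congr_fun h0 (row T)
    rw [Finsupp.finsetSum_apply, Finset.sum_congr rfl h1] at this
    simp at this
    exact absurd (this ▸ Finset.card_ne_zero_of_mem (s := rowGroup T)
      (mem_rowGroup.2 fun a => rfl : (1 : Perm α) ∈ rowGroup T)) (by simp)
  · rw [map_sum]
    refine Finset.sum_nbij' (fun h => g * h) (fun h => g⁻¹ * h) ?_ ?_
      (fun h _ => inv_mul_cancel_left g h) (fun h _ => mul_inv_cancel_left g h)
      fun h _ => by simp only [map_mul]; rfl
    · intro h hh
      rw [mem_rowGroup] at *
      simp [hg, hh]
    · intro h hh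
      rw [mem_rowGroup] at *
      intro a
      have := hg (g⁻¹ (h a))
      simp_all

/-- A nonzero vector of the Specht module on which the column group acts by the sign. -/
theorem exists_col_alternating (T : α ≃ lam.cells) :
    ∃ v ∈ (specht T).toSubmodule, v ≠ 0 ∧ ∀ g ∈ colGroup T, act α g v = sgn g • v :=
  ⟨poly T, poly_mem T, poly_ne_zero T, fun _ hg => act_poly hg⟩

lemma specht_le (T U : α ≃ lam.cells) : (specht T).toSubmodule ≤ (specht U).toSubmodule := by
  let p : Perm α := U.trans T.symm
  have hp : ∀ a, T (p a) = U a := fun a => T.apply_symm_apply _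
  have e : poly T = act α p (poly U) := by
    simp only [poly_eq, map_sum, act_single]
    refine Finset.sum_nbij' (fun g => p⁻¹ * g * p) (fun g => p * g * p⁻¹) ?_ ?_
      (fun g _ => by group) (fun g _ => by group) fun g _ => ?_
    · intro g hg
      rw [mem_colGroup] at *
      intro a
      have := hg (p a)
      simp only [col] at *
      rw [← hp, ← hp a]
      simpa using this
    · intro g hg
      rw [mem_colGroup] at *
      intro a
      have := hg (p⁻¹ a)
      simp only [col] at *
      rw [← hp, ← hp (p⁻¹ a)] at this
      simpa using this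
    · rw [sgn_mul, sgn_mul, sgn_inv, mul_comm (sgn p), mul_assoc (sgn g), sgn_mul_self, mul_one]
      congr 1
      ext a
      simp only [Function.comp_apply, row, mul_inv_rev, inv_inv, Perm.mul_apply, ← hp]
      simp
  refine Submodule.span_le.2 ?_
  rintro _ ⟨g, rfl⟩
  exact Submodule.subset_span ⟨g * p, by simp only [e, map_mul]; rfl⟩

/-- The Specht module depends only on the shape. -/
theorem specht_eq (T U : α ≃ lam.cells) : specht T = specht U :=
  Subrepresentation.toSubmodule_injective (le_antisymm (specht_le T U) (specht_le U T))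

/-- The staircase `(m, m - 1, ..., 1)`. -/
def staircase (m : ℕ) : YoungDiagram where
  cells := (Finset.range m ×ˢ Finset.range m).filter fun c => c.1 + c.2 < m
  isLowerSet := by
    intro a b hab ha
    simp only [Finset.coe_filter, Set.mem_ofPred_eq, Finset.mem_product, Finset.mem_range] at *
    obtain ⟨h1, h2⟩ := Prod.le_def.1 hab
    omega

lemma mem_staircase {m i j : ℕ} : (i, j) ∈ staircase m ↔ i + j < m := by
  rw [← YoungDiagram.mem_cells]
  simp only [staircase, Finset.mem_filter, Finset.mem_product, Finset.mem_range]
  omega

lemma rowLen_staircase (m i : ℕ) : (staircase m).rowLen i = m - i := by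
  refine le_antisymm ?_ ?_
  · by_contra h
    have := YoungDiagram.mem_iff_lt_rowLen.2 (not_le.1 h)
    rw [mem_staircase] at this
    omega
  · by_contra h
    have : (i, (staircase m).rowLen i) ∈ staircase m := mem_staircase.2 (by omega)
    exact (lt_irrefl _) (YoungDiagram.mem_iff_lt_rowLen.1 this)

lemma card_staircase (m : ℕ) : (staircase m).card = m * (m + 1) / 2 := by
  have h : (staircase m).cells = (Finset.range m).biUnion fun i => (staircase m).row i := by
    ext ⟨i, j⟩
    simp only [Finset.mem_biUnion, Finset.mem_range, YoungDiagram.mem_row_iff,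
      YoungDiagram.mem_cells, mem_staircase]
    constructor
    · intro h; exact ⟨i, by omega, h, rfl⟩
    · rintro ⟨_, -, h, -⟩; exact h
  rw [YoungDiagram.card, h, Finset.card_biUnion fun a _ b _ hab => Finset.disjoint_left.2
    fun c ha hb => hab ((YoungDiagram.mem_row_iff.1 ha).2.symm.trans
      (YoungDiagram.mem_row_iff.1 hb).2)]
  simp only [← YoungDiagram.rowLen_eq_card, rowLen_staircase]
  clear h
  induction m with
  | zero => simp
  | succ n ih =>
    rw [Finset.sum_range_succ']
    simp only [Nat.sub_zero, Nat.succ_sub_succ]
    rw [ih]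
    have : (n + 1) * (n + 1 + 1) = n * (n + 1) + 2 * (n + 1) := by ring
    omega

/-- Every irreducible complex representation of `Perm α` occurs in the tensor square of the
Specht module of `T`. -/
def UniversalSquare (T : α ≃ lam.cells) : Prop :=
  ∀ (V : Type) [AddCommGroup V] [Module ℂ V] [FiniteDimensional ℂ V]
    (σ : Representation ℂ (Perm α) V), σ.IsIrreducible →
    ∃ f : σ.IntertwiningMap ((spechtRep T).tprod (spechtRep T)), f ≠ 0

/-- It is enough to find every Specht module in the square. -/
theorem universalSquare_of {T : α ≃ lam.cells}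
    (h : ∀ (mu : YoungDiagram) (U : α ≃ mu.cells),
      ∃ f : (spechtRep U).IntertwiningMap ((spechtRep T).tprod (spechtRep T)), f ≠ 0) :
    UniversalSquare T := by
  intro V _ _ _ σ hσ
  obtain ⟨mu, U, ⟨e⟩⟩ := exists_equiv_specht σ
  obtain ⟨f, hf⟩ := h mu U
  refine ⟨f.comp e.toIntertwiningMap, fun h0 => hf ?_⟩
  refine Representation.IntertwiningMap.ext (LinearMap.ext fun x => ?_)
  have := congrArg (fun F : σ.IntertwiningMap ((spechtRep T).tprod (spechtRep T)) => F (e.symm x)) h0
  simpa using this

end Vale.Agent.P197.Specht
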