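import Mathlib

/-!
# P197: Specht modules

For a tableau `T : α ≃ cells of lam` the Specht module is the subrepresentation, in the permutation
representation on functions `α → ℕ`, generated by the polytabloid of `T`.
-/

namespace Vale.Agent.P197.Specht

open Equiv Finset

/-- Formal combinations of row assignments. -/
abbrev Words (α : Type) : Type := (α → ℕ) →₀ ℂ

variable {α : Type}

/-- The permutation representation on formal combinations of row assignments. -/
noncomputable def act (α : Type) : Representation ℂ (Perm α) (Words α) where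
  toFun g := Finsupp.lmapDomain ℂ ℂ fun r => r ∘ ⇑g⁻¹
  map_one' := by
    refine Finsupp.lhom_ext fun r c => ?_
    simp [Finsupp.lmapDomain_apply]
  map_mul' g h := by
    refine Finsupp.lhom_ext fun r c => ?_
    simp [Finsupp.lmapDomain_apply, Function.comp_assoc, mul_inv_rev]

@[simp]
lemma act_single (g : Perm α) (r : α → ℕ) (c : ℂ) :
    act α g (Finsupp.single r c) = Finsupp.single (r ∘ ⇑g⁻¹) c := by
  simp [act, Finsupp.lmapDomain_apply]

lemma act_apply (g : Perm α) (v : Words α) (r : α → ℕ) : act α g v r = v (r ∘ ⇑g) := by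
  classical
  induction v using Finsupp.induction_linear with
  | zero => simp
  | add a b ha hb => simp [ha, hb]
  | single s c =>
    rw [act_single, Finsupp.single_apply, Finsupp.single_apply]
    congr 1
    simp only [eq_iff_iff]
    constructor <;> intro h <;> subst h <;> ext a <;> simp

variable {lam : YoungDiagram}

/-- The row of the cell of `a`. -/
def row (T : α ≃ lam.cells) (a : α) : ℕ := (T a).1.1

/-- The column of the cell of `a`. -/
def col (T : α ≃ lam.cells) (a : α) : ℕ := (T a).1.2

lemma row_col_inj (T : α ≃ lam.cells) {a b : α} (hr : row T a = row T b)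
    (hc : col T a = col T b) : a = b :=
  T.injective (Subtype.ext (Prod.ext hr hc))

lemma row_lt_colLen (T : α ≃ lam.cells) (a : α) : row T a < lam.colLen (col T a) :=
  YoungDiagram.mem_iff_lt_colLen.1 ((YoungDiagram.mem_cells _).1 (T a).2)

lemma col_lt_rowLen (T : α ≃ lam.cells) (a : α) : col T a < lam.rowLen (row T a) :=
  YoungDiagram.mem_iff_lt_rowLen.1 ((YoungDiagram.mem_cells _).1 (T a).2)

/-- The row assignment of a tableau as a vector. -/
noncomputable def tabloid (T : α ≃ lam.cells) : Words α := Finsupp.single (row T) 1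

variable [Fintype α] [DecidableEq α]

/-- The column group. -/
def colGroup (T : α ≃ lam.cells) : Finset (Perm α) := {g | ∀ a, col T (g a) = col T a}

lemma mem_colGroup {T : α ≃ lam.cells} {g : Perm α} :
    g ∈ colGroup T ↔ ∀ a, col T (g a) = col T a := by simp [colGroup]

lemma one_mem_colGroup (T : α ≃ lam.cells) : 1 ∈ colGroup T := by simp [mem_colGroup]

lemma mul_mem_colGroup {T : α ≃ lam.cells} {g h : Perm α} (hg : g ∈ colGroup T)
    (hh : h ∈ colGroup T) : g * h ∈ colGroup T := by
  rw [mem_colGroup] at *
  simp [hg, hh]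

lemma inv_mem_colGroup {T : α ≃ lam.cells} {g : Perm α} (hg : g ∈ colGroup T) :
    g⁻¹ ∈ colGroup T := by
  rw [mem_colGroup] at *
  intro a
  simpa using (hg (g⁻¹ a)).symm

/-- The sign of a permutation as a complex number. -/
noncomputable def sgn (g : Perm α) : ℂ := ((Perm.sign g : ℤ) : ℂ)

@[simp] lemma sgn_one : sgn (1 : Perm α) = 1 := by simp [sgn]

lemma sgn_mul (g h : Perm α) : sgn (g * h) = sgn g * sgn h := by simp [sgn]

lemma sgn_mul_self (g : Perm α) : sgn g * sgn g = 1 := by
  rcases Int.units_eq_one_or (Perm.sign g) with h | h <;> simp [sgn, h]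

lemma sgn_inv (g : Perm α) : sgn g⁻¹ = sgn g := by simp [sgn]

lemma sgn_conj (g : Perm α) : (starRingEnd ℂ) (sgn g) = sgn g := by
  rcases Int.units_eq_one_or (Perm.sign g) with h | h <;> simp [sgn, h]

/-- The signed sum over the column group. -/
noncomputable def colAnti (T : α ≃ lam.cells) : Words α →ₗ[ℂ] Words α :=
  ∑ g ∈ colGroup T, sgn g • act α g

lemma colAnti_apply (T : α ≃ lam.cells) (v : Words α) :
    colAnti T v = ∑ g ∈ colGroup T, sgn g • act α g v := by
  simp [colAnti]

lemma colAnti_act {T : α ≃ lam.cells} {h : Perm α} (hh : h ∈ colGroup T) (v : Words α) :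
    colAnti T (act α h v) = sgn h • colAnti T v := by
  simp only [colAnti_apply, Finset.smul_sum, smul_smul]
  refine Finset.sum_nbij' (fun g => g * h) (fun g => g * h⁻¹)
    (fun g hg => mul_mem_colGroup hg hh)
    (fun g hg => mul_mem_colGroup hg (inv_mem_colGroup hh))
    (fun g _ => mul_inv_cancel_right g h) (fun g _ => inv_mul_cancel_right g h) fun g _ => ?_
  rw [sgn_mul, mul_comm (sgn g) (sgn h), ← mul_assoc, sgn_mul_self, one_mul, map_mul]
  rfl

/-- The polytabloid. -/
noncomputable def poly (T : α ≃ lam.cells) : Words α := colAnti T (tabloid T)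

lemma poly_eq (T : α ≃ lam.cells) :
    poly T = ∑ g ∈ colGroup T, Finsupp.single (row T ∘ ⇑g⁻¹) (sgn g) := by
  simp [poly, tabloid, colAnti_apply]

lemma poly_row (T : α ≃ lam.cells) : poly T (row T) = 1 := by
  rw [poly_eq, Finsupp.finsetSum_apply, Finset.sum_eq_single 1]
  · simp
  · intro g hg hne
    rw [Finsupp.single_apply, if_neg]
    intro h
    apply hne
    ext a
    have hc := mem_colGroup.1 hg a
    have hr := congrFun h (g a)
    simp only [Function.comp_apply, Perm.coe_inv, Equiv.symm_apply_apply] at hr
    exact row_col_inj T (by simpa using hr.symm) (by simpa using hc)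
  · exact fun h => absurd (one_mem_colGroup T) h

lemma poly_ne_zero (T : α ≃ lam.cells) : poly T ≠ 0 := fun h => by
  simpa [h] using poly_row T

lemma act_poly {T : α ≃ lam.cells} {g : Perm α} (hg : g ∈ colGroup T) :
    act α g (poly T) = sgn g • poly T := by
  simp only [poly, colAnti_apply, map_sum, map_smul, Finset.smul_sum, smul_smul]
  refine Finset.sum_nbij' (fun h => g * h) (fun h => g⁻¹ * h)
    (fun h hh => mul_mem_colGroup hg hh)
    (fun h hh => mul_mem_colGroup (inv_mem_colGroup hg) hh)
    (fun h _ => inv_mul_cancel_left g h) (fun h _ => mul_inv_cancel_left g h) fun h _ => ?_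
  rw [sgn_mul, ← mul_assoc, sgn_mul_self, one_mul, map_mul]
  rfl

/-- The Specht module of a tableau. -/
noncomputable def specht (T : α ≃ lam.cells) : Subrepresentation (act α) where
  toSubmodule := Submodule.span ℂ (Set.range fun g => act α g (poly T))
  apply_mem_toSubmodule g v hv := by
    induction hv using Submodule.span_induction with
    | mem x hx =>
      obtain ⟨h, rfl⟩ := hx
      exact Submodule.subset_span ⟨g * h, by simp only [map_mul]; rfl⟩
    | zero => simp
    | add x y _ _ hx hy => rw [map_add]; exact add_mem hx hy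
    | smul c x _ hx => rw [map_smul]; exact Submodule.smul_mem _ c hx

/-- The representation on a Specht module. -/
noncomputable def spechtRep (T : α ≃ lam.cells) :
    Representation ℂ (Perm α) (specht T).toSubmodule :=
  (specht T).toRepresentation

lemma poly_mem (T : α ≃ lam.cells) : poly T ∈ (specht T).toSubmodule :=
  Submodule.subset_span ⟨1, by simp⟩

instance (T : α ≃ lam.cells) : FiniteDimensional ℂ (specht T).toSubmodule :=
  FiniteDimensional.span_of_finite ℂ (Set.finite_range _)

end Vale.Agent.P197.Specht
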