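import Vale.Agent.P197.Specht.James

/-!
# P197: Specht modules are a complete list of irreducible representations

Characters of pairwise non-isomorphic irreducibles are independent class functions, and there are no
more conjugacy classes than diagrams.
-/

namespace Vale.Agent.P197.Specht

open Equiv Finset

variable {α : Type} [Fintype α] [DecidableEq α] {lam mu : YoungDiagram}

lemma rowLen_eq_card (T : α ≃ lam.cells) (i : ℕ) : lam.rowLen i = #{a | row T a = i} := by
  rw [YoungDiagram.rowLen_eq_card]
  symm
  refine Finset.card_bij (fun a _ => ((T a : ℕ × ℕ))) ?_ ?_ ?_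
  · intro a ha
    rw [YoungDiagram.mem_row_iff]
    exact ⟨(YoungDiagram.mem_cells _).1 (T a).2, (Finset.mem_filter.1 ha).2⟩
  · intro a _ b _ h; exact T.injective (Subtype.ext h)
  · intro c hc
    rw [YoungDiagram.mem_row_iff] at hc
    exact ⟨T.symm ⟨c, (YoungDiagram.mem_cells _).2 hc.1⟩,
      Finset.mem_filter.2 ⟨Finset.mem_univ _, by simp [row, hc.2]⟩, by simp⟩

/-- Two shapes with equal row counts are equal. -/
lemma shape_eq (T : α ≃ lam.cells) (U : α ≃ mu.cells)
    (h : ∀ k, #{a | row T a < k} = #{a | row U a < k}) : lam = mu := by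
  have split : ∀ (f : α → ℕ) i, #{a | f a < i + 1} = #{a | f a < i} + #{a | f a = i} := by
    intro f i
    rw [← Finset.card_union_of_disjoint (Finset.disjoint_filter.2 fun a _ h h' => by omega)]
    congr 1; ext a; simp; omega
  have hr : ∀ i, lam.rowLen i = mu.rowLen i := fun i => by
    rw [rowLen_eq_card T, rowLen_eq_card U]
    have := h (i + 1)
    rw [split, split, h i] at this
    omega
  ext ⟨i, j⟩
  simp [YoungDiagram.mem_iff_lt_rowLen, hr i]

/-- Specht modules of different shapes are not isomorphic. -/
theorem shape_eq_of_equiv {T : α ≃ lam.cells} {U : α ≃ mu.cells}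
    (e : (spechtRep T).Equiv (spechtRep U)) : lam = mu := by
  have ne : ∀ {l m : YoungDiagram} {A : α ≃ l.cells} {B : α ≃ m.cells}
      (e : (spechtRep A).Equiv (spechtRep B)), e.toIntertwiningMap ≠ 0 := by
    intro l m A B e h
    have h1 := e.injective (a₁ := ⟨poly A, poly_mem A⟩) (a₂ := 0) (by
      show e.toIntertwiningMap _ = e.toIntertwiningMap _
      rw [h]; rfl)
    exact poly_ne_zero A (congrArg Subtype.val h1)
  exact shape_eq T U fun k => le_antisymm (card_lt_le_of_intertwining _ (ne e.symm) k)
    (card_lt_le_of_intertwining _ (ne e) k)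

/-- Orthonormal class functions are at most as many as the conjugacy classes. -/
lemma card_le_conjClasses {G ι : Type} [Group G] [Fintype G] [Fintype ι] [DecidableEq ι]
    (χ : ι → G → ℂ) (hconj : ∀ i g h, χ i (h * g * h⁻¹) = χ i g)
    (horth : ∀ i j, (Nat.card G : ℂ)⁻¹ * ∑ g, χ i g * χ j g⁻¹ = if i = j then 1 else 0) :
    Fintype.card ι ≤ Nat.card (ConjClasses G) := by
  have : Fintype (ConjClasses G) := Fintype.ofFinite _
  let F : ι → ConjClasses G → ℂ := fun i c => χ i (Quotient.out c)
  have hF : ∀ i g, F i (ConjClasses.mk g) = χ i g := fun i g => by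
    have := Quotient.mk_out (s := IsConj.setoid G) g
    obtain ⟨h, hh⟩ := isConj_iff.1 this
    exact (hconj i _ h).symm.trans (congrArg (χ i) hh)
  have hli : LinearIndependent ℂ F := by
    rw [Fintype.linearIndependent_iff]
    intro c hc j
    have h0 : ∀ g, ∑ i, c i * χ i g = 0 := fun g => by
      have := congrFun hc (ConjClasses.mk g)
      simpa [hF] using this
    calc c j = ∑ i, c i * (if i = j then 1 else 0) := by simp
      _ = (Nat.card G : ℂ)⁻¹ * ∑ g, (∑ i, c i * χ i g) * χ j g⁻¹ := by
        simp only [← horth, Finset.sum_mul, Finset.mul_sum]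
        rw [Finset.sum_comm]
        exact Finset.sum_congr rfl fun g _ => Finset.sum_congr rfl fun i _ => by ring
      _ = 0 := by simp [h0]
  simpa [Module.finrank_pi, Nat.card_eq_fintype_card] using hli.fintype_card_le_finrank

lemma card_conjClasses_le :
    Nat.card (ConjClasses (Perm α)) ≤ Nat.card (Fintype.card α).Partition := by
  refine Nat.card_le_card_of_injective
    (Quotient.lift (fun g : Perm α => g.partition) fun a b h => Perm.partition_eq_of_isConj.1 h) ?_
  intro x y
  induction x using Quotient.inductionOn with
  | h a => induction y using Quotient.inductionOn with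
    | h b => exact fun h => Quotient.sound (Perm.partition_eq_of_isConj.2 h)

lemma card_cellsOfRowLens : ∀ w : List ℕ, (YoungDiagram.cellsOfRowLens w).card = w.sum
  | [] => by simp [YoungDiagram.cellsOfRowLens]
  | w :: ws => by
    rw [YoungDiagram.cellsOfRowLens, Finset.card_union_of_disjoint, List.sum_cons,
      Finset.card_map, card_cellsOfRowLens ws]
    · simp
    · rw [Finset.disjoint_left]
      intro c hc hc'
      simp only [Finset.mem_product, Finset.mem_singleton] at hc
      obtain ⟨d, -, rfl⟩ := Finset.mem_map.1 hc'
      simp at hc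

/-- The diagrams of size `n`. -/
abbrev Shape (n : ℕ) : Type := {lam : YoungDiagram // lam.card = n}

/-- The diagram of a partition. -/
noncomputable def shapeOf {n : ℕ} (p : n.Partition) : Shape n :=
  ⟨YoungDiagram.ofRowLens (p.parts.sort (· ≥ ·)) (Multiset.pairwise_sort _ _).sortedGE, by
    show (YoungDiagram.cellsOfRowLens _).card = n
    rw [card_cellsOfRowLens, ← Multiset.sum_coe, Multiset.sort_eq, p.parts_sum]⟩

lemma shapeOf_injective {n : ℕ} : Function.Injective (shapeOf (n := n)) := by
  intro p q h
  have hp : ∀ x ∈ p.parts.sort (· ≥ ·), 0 < x := fun x hx => p.parts_pos ((Multiset.mem_sort _).1 hx)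
  have hq : ∀ x ∈ q.parts.sort (· ≥ ·), 0 < x := fun x hx => q.parts_pos ((Multiset.mem_sort _).1 hx)
  have e := congrArg (fun s : Shape n => s.1.rowLens) h
  simp only [shapeOf, YoungDiagram.rowLens_ofRowLens_eq_self hp,
    YoungDiagram.rowLens_ofRowLens_eq_self hq] at e
  apply Nat.Partition.ext
  rw [← Multiset.sort_eq p.parts (· ≥ ·), e, Multiset.sort_eq]

lemma char_inner {V W : Type} [AddCommGroup V] [Module ℂ V] [FiniteDimensional ℂ V]
    [AddCommGroup W] [Module ℂ W] [FiniteDimensional ℂ W]
    (ρ : Representation ℂ (Perm α) V) (τ : Representation ℂ (Perm α) W)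
    [ρ.IsIrreducible] [τ.IsIrreducible] :
    (Nat.card (Perm α) : ℂ)⁻¹ * ∑ g, ρ.character g * τ.character g⁻¹ =
      @ite ℂ (Nonempty (τ.Equiv ρ)) (Classical.propDecidable _) 1 0 := by
  have : Invertible (Nat.card (Perm α) : ℂ) :=
    invertibleOfNonzero (Nat.cast_ne_zero.2 Nat.card_pos.ne')
  rw [Representation.char_orthonormal ρ τ]

/-- A tableau of the shape of a partition. -/
noncomputable def tab (p : (Fintype.card α).Partition) : α ≃ (shapeOf p).1.cells :=
  Fintype.equivOfCardEq (by simp [(shapeOf p).2])

/-- The character of the Specht module of a partition. -/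
noncomputable def spechtChar (p : (Fintype.card α).Partition) : Perm α → ℂ :=
  Representation.character (V := (specht (tab p)).toSubmodule) (spechtRep (tab p))

lemma spechtChar_inner (p q : (Fintype.card α).Partition) :
    (Nat.card (Perm α) : ℂ)⁻¹ * ∑ g, spechtChar p g * spechtChar q g⁻¹
      = if p = q then 1 else 0 := by
  have ip := spechtRep_irreducible (tab p)
  have iq := spechtRep_irreducible (tab q)
  rw [spechtChar, spechtChar,
    char_inner (V := (specht (tab p)).toSubmodule) (W := (specht (tab q)).toSubmodule)]
  by_cases h : p = q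
  · subst h
    rw [if_pos (⟨Representation.Equiv.refl _⟩ : Nonempty _), if_pos rfl]
  · rw [if_neg, if_neg h]
    rintro ⟨e⟩
    exact h (shapeOf_injective (Subtype.ext (shape_eq_of_equiv e).symm))

lemma spechtChar_cross {V : Type} [AddCommGroup V] [Module ℂ V] [FiniteDimensional ℂ V]
    (σ : Representation ℂ (Perm α) V) [σ.IsIrreducible] (q : (Fintype.card α).Partition)
    (hne : ¬ Nonempty (σ.Equiv (spechtRep (tab q)))) :
    ((Nat.card (Perm α) : ℂ)⁻¹ * ∑ g, σ.character g * spechtChar q g⁻¹ = 0) ∧
    ((Nat.card (Perm α) : ℂ)⁻¹ * ∑ g, spechtChar q g * σ.character g⁻¹ = 0) := by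
  have := spechtRep_irreducible (tab q)
  unfold spechtChar
  constructor
  · rw [char_inner (W := (specht (tab q)).toSubmodule), if_neg]
    rintro ⟨e⟩
    exact hne ⟨e.symm⟩
  · rw [char_inner (V := (specht (tab q)).toSubmodule), if_neg hne]

/-- Every irreducible representation of the symmetric group is a Specht module. -/
theorem exists_equiv_specht {V : Type} [AddCommGroup V] [Module ℂ V] [FiniteDimensional ℂ V]
    (σ : Representation ℂ (Perm α) V) [hσ : σ.IsIrreducible] :
    ∃ (lam : YoungDiagram) (T : α ≃ lam.cells), Nonempty (σ.Equiv (spechtRep T)) := by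
  by_contra hno
  simp only [not_exists] at hno
  let χ : Option (Fintype.card α).Partition → Perm α → ℂ := fun i =>
    i.elim σ.character spechtChar
  have h := card_le_conjClasses χ (fun i g h => by
    cases i with
    | none => simp only [χ, Option.elim_none]; exact Representation.char_conj σ g h
    | some p =>
      simp only [χ, Option.elim_some, spechtChar]
      exact Representation.char_conj (V := (specht (tab p)).toSubmodule) (spechtRep (tab p)) g h)
    (fun i j => by
    simp only [χ]
    cases i with
    | none => cases j with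
      | none =>
        simp only [Option.elim_none]
        refine (char_inner σ σ).trans ?_
        rw [if_pos (⟨Representation.Equiv.refl σ⟩ : Nonempty _)]
        simp
      | some q =>
        simp only [Option.elim_none, Option.elim_some]
        rw [(spechtChar_cross σ q (hno _ _)).1, if_neg (by simp)]
    | some p => cases j with
      | none =>
        simp only [Option.elim_none, Option.elim_some]
        rw [(spechtChar_cross σ p (hno _ _)).2, if_neg (by simp)]
      | some q =>
        simp only [Option.elim_some]
        refine (spechtChar_inner p q).trans ?_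
        simp)
  have := h.trans card_conjClasses_le
  rw [Nat.card_eq_fintype_card, Fintype.card_option] at this
  omega

end Vale.Agent.P197.Specht
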