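import Vale.Agent.P197.Specht.Basic

/-!
# P197: Specht modules are irreducible and pairwise non-isomorphic

The signed column sum maps every word of the content of the shape to a multiple of the polytabloid,
and kills every word whose content does not lie below the shape in dominance order.
-/

namespace Vale.Agent.P197.Specht

open Equiv Finset ComplexConjugate

variable {α : Type} [Fintype α] [DecidableEq α] {lam mu : YoungDiagram}

lemma sgn_ne_one_swap {a b : α} (h : a ≠ b) : sgn (Equiv.swap a b) = -1 := by
  simp [sgn, Perm.sign_swap h]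

/-- A word repeating a value inside a column is killed. -/
lemma colAnti_single_eq_zero {T : α ≃ lam.cells} {r : α → ℕ} {a b : α} (hab : a ≠ b)
    (hc : col T a = col T b) (hr : r a = r b) : colAnti T (Finsupp.single r 1) = 0 := by
  have hs : Equiv.swap a b ∈ colGroup T := mem_colGroup.2 fun x => by
    rw [Equiv.swap_apply_def]; split_ifs <;> simp_all
  have e : act α (Equiv.swap a b) (Finsupp.single r 1) = Finsupp.single r 1 := by
    rw [act_single]
    congr 1
    ext x
    simp only [Function.comp_apply, Equiv.swap_inv, Equiv.swap_apply_def]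
    split_ifs <;> simp_all
  have h := colAnti_act hs (Finsupp.single r (1 : ℂ))
  rw [e, sgn_ne_one_swap hab, neg_one_smul] at h
  exact self_eq_neg.1 h

/-- A word with distinct values in each column. -/
def ColDistinct (T : α ≃ lam.cells) (r : α → ℕ) : Prop :=
  ∀ a b, col T a = col T b → r a = r b → a = b

lemma card_col (T : α ≃ lam.cells) (j : ℕ) :
    #{a | col T a = j} = lam.colLen j := by
  rw [YoungDiagram.colLen_eq_card]
  refine Finset.card_bij (fun a _ => ((T a : ℕ × ℕ))) ?_ ?_ ?_
  · intro a ha
    rw [YoungDiagram.mem_col_iff]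
    exact ⟨(YoungDiagram.mem_cells _).1 (T a).2, (Finset.mem_filter.1 ha).2⟩
  · intro a _ b _ h; exact T.injective (Subtype.ext h)
  · intro c hc
    rw [YoungDiagram.mem_col_iff] at hc
    exact ⟨T.symm ⟨c, (YoungDiagram.mem_cells _).2 hc.1⟩,
      Finset.mem_filter.2 ⟨Finset.mem_univ _, by simp [col, hc.2]⟩, by simp⟩

lemma card_col_row_lt (T : α ≃ lam.cells) (j k : ℕ) :
    #{a | col T a = j ∧ row T a < k} = min k (lam.colLen j) := by
  rw [← Finset.card_range (min k (lam.colLen j))]
  refine Finset.card_bij (fun a _ => row T a) ?_ ?_ ?_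
  · intro a ha
    simp only [Finset.mem_filter, Finset.mem_univ, true_and] at ha
    simpa [ha.2] using ha.1 ▸ row_lt_colLen T a
  · intro a ha b hb h
    simp only [Finset.mem_filter, Finset.mem_univ, true_and] at ha hb
    exact row_col_inj T h (ha.1.trans hb.1.symm)
  · intro i hi
    simp only [Finset.mem_range, lt_min_iff] at hi
    refine ⟨T.symm ⟨(i, j), (YoungDiagram.mem_cells _).2
      (YoungDiagram.mem_iff_lt_colLen.2 hi.2)⟩, ?_, ?_⟩
    · exact Finset.mem_filter.2 ⟨Finset.mem_univ _, by simp [col, row, hi.1]⟩
    · simp [row]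

lemma card_col_lt_le {T : α ≃ lam.cells} {r : α → ℕ} (h : ColDistinct T r) (j k : ℕ) :
    #{a | col T a = j ∧ r a < k} ≤ #{a | col T a = j ∧ row T a < k} := by
  rw [card_col_row_lt, le_min_iff]
  constructor
  · refine (Finset.card_le_card_of_injOn r ?_ ?_).trans_eq (Finset.card_range k)
    · intro a ha
      simp only [Finset.coe_filter, Set.mem_ofPred_eq, Finset.mem_univ, true_and] at ha
      simp [ha.2]
    · intro a ha b hb e
      simp only [Finset.coe_filter, Set.mem_ofPred_eq, Finset.mem_univ, true_and] at ha hb
      exact h a b (ha.1.trans hb.1.symm) e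
  · rw [← card_col T j]
    exact Finset.card_le_card fun a ha => by simp_all

lemma card_lt_eq_sum (T : α ≃ lam.cells) (r : α → ℕ) (k : ℕ) :
    #{a | r a < k} = ∑ j ∈ univ.image (col T), #{a | col T a = j ∧ r a < k} := by
  rw [Finset.card_eq_sum_card_fiberwise (f := col T) (t := univ.image (col T))
    (fun a _ => Finset.mem_image_of_mem _ (Finset.mem_univ a))]
  refine Finset.sum_congr rfl fun j _ => ?_
  congr 1
  ext a
  simp [and_comm]

/-- Dominance: a word with distinct values in each column is below the shape. -/
lemma card_lt_le {T : α ≃ lam.cells} {r : α → ℕ} (h : ColDistinct T r) (k : ℕ) :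
    #{a | r a < k} ≤ #{a | row T a < k} := by
  rw [card_lt_eq_sum T r, card_lt_eq_sum T (row T)]
  exact Finset.sum_le_sum fun j _ => card_col_lt_le h j k

lemma lt_colLen {T : α ≃ lam.cells} {r : α → ℕ} (h : ColDistinct T r)
    (hk : ∀ k, #{a | r a < k} = #{a | row T a < k}) (a : α) :
    r a < lam.colLen (col T a) := by
  have hs := hk (lam.colLen (col T a))
  rw [card_lt_eq_sum T r, card_lt_eq_sum T (row T),
    Finset.sum_eq_sum_iff_of_le fun j _ => card_col_lt_le h j _] at hs
  have e := hs (col T a) (Finset.mem_image_of_mem _ (Finset.mem_univ a))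
  rw [card_col_row_lt, min_self, ← card_col T] at e
  have := Finset.eq_of_subset_of_card_le (fun b hb => by simp_all) e.ge
  have ha : a ∈ ({b | col T b = col T a} : Finset α) := by simp
  rw [← this] at ha
  exact (Finset.mem_filter.1 ha).2.2.trans_eq (card_col T _)

/-- A word of the content of the shape with distinct values in each column comes from the column
group. -/
lemma exists_colGroup {T : α ≃ lam.cells} {r : α → ℕ} (h : ColDistinct T r)
    (hk : ∀ k, #{a | r a < k} = #{a | row T a < k}) :
    ∃ g ∈ colGroup T, r = row T ∘ ⇑g⁻¹ := by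
  let f : α → α := fun a => T.symm ⟨(r a, col T a),
    (YoungDiagram.mem_cells _).2 (YoungDiagram.mem_iff_lt_colLen.2 (lt_colLen h hk a))⟩
  have hf : ∀ a, T (f a) = ⟨(r a, col T a),
      (YoungDiagram.mem_cells _).2 (YoungDiagram.mem_iff_lt_colLen.2 (lt_colLen h hk a))⟩ :=
    fun a => T.apply_symm_apply _
  have hinj : Function.Injective f := fun a b e => by
    have := congrArg T e
    rw [hf, hf, Subtype.mk.injEq, Prod.mk.injEq] at this
    exact h a b this.2 this.1
  refine ⟨(Equiv.ofBijective f hinj.bijective_of_finite)⁻¹, inv_mem_colGroup (mem_colGroup.2 ?_), ?_⟩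
  · intro a; simp [col, hf]
  · ext a; simp [row, hf]

/-- The signed column sum of a word of the content of the shape is a multiple of the polytabloid. -/
lemma colAnti_single_mem {T : α ≃ lam.cells} {r : α → ℕ}
    (hk : ∀ k, #{a | r a < k} = #{a | row T a < k}) :
    colAnti T (Finsupp.single r 1) ∈ Submodule.span ℂ {poly T} := by
  by_cases h : ColDistinct T r
  · obtain ⟨g, hg, rfl⟩ := exists_colGroup h hk
    rw [← act_single, colAnti_act hg]
    exact Submodule.smul_mem _ _ (Submodule.subset_span rfl)
  · simp only [ColDistinct, not_forall] at h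
    obtain ⟨a, b, hc, hr, hne⟩ := h
    rw [colAnti_single_eq_zero hne hc hr]
    exact zero_mem _

lemma content_comp (r : α → ℕ) (g : Perm α) (k : ℕ) :
    #{a | (r ∘ ⇑g) a < k} = #{a | r a < k} :=
  Finset.card_bij (fun a _ => g a) (fun a ha => by simpa using ha)
    (fun a _ b _ e => g.injective e) fun b hb => ⟨g.symm b, by simpa using hb, by simp⟩

/-- Every word in the support of a Specht module has the content of its shape. -/
lemma content_of_mem {T : α ≃ lam.cells} {v : Words α} (hv : v ∈ (specht T).toSubmodule)
    {r : α → ℕ} (hr : r ∈ v.support) (k : ℕ) : #{a | r a < k} = #{a | row T a < k} := by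
  revert r
  induction hv using Submodule.span_induction with
  | mem x hx =>
    obtain ⟨g, rfl⟩ := hx
    intro r hr
    rw [Finsupp.mem_support_iff, act_apply, poly_eq, Finsupp.finsetSum_apply] at hr
    obtain ⟨h, -, hne⟩ := Finset.exists_ne_zero_of_sum_ne_zero hr
    have e : row T ∘ ⇑h⁻¹ = r ∘ ⇑g := by
      by_contra e
      exact hne (Finsupp.single_eq_of_ne fun e' => e e'.symm)
    rw [← content_comp r g, ← e, content_comp]
  | zero => simp
  | add x y _ _ hx hy =>
    intro r hr
    rcases Finset.mem_union.1 (Finsupp.support_add hr) with h | h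
    · exact hx h
    · exact hy h
  | smul c x _ hx => exact fun hr => hx (Finsupp.support_smul hr)

/-- The Hermitian form on words, conjugate linear in the first argument. -/
noncomputable def pair (v : Words α) : Words α →ₗ[ℂ] ℂ :=
  Finsupp.linearCombination ℂ fun r => conj (v r)

lemma pair_apply (v w : Words α) : pair v w = w.sum fun r c => c * conj (v r) := by
  simp [pair, Finsupp.linearCombination_apply, smul_eq_mul]

lemma pair_single (v : Words α) (r : α → ℕ) (c : ℂ) :
    pair v (Finsupp.single r c) = c * conj (v r) := by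
  simp [pair]

lemma pair_act (v w : Words α) (g : Perm α) : pair v (act α g w) = pair (act α g⁻¹ v) w := by
  induction w using Finsupp.induction_linear with
  | zero => simp
  | add a b ha hb => simp [ha, hb]
  | single r c => rw [act_single, pair_single, pair_single, act_apply]

lemma pair_colAnti (T : α ≃ lam.cells) (v w : Words α) :
    pair v (colAnti T w) = pair (colAnti T v) w := by
  induction w using Finsupp.induction_linear with
  | zero => simp
  | add a b ha hb => simp [ha, hb]
  | single r c =>
    simp only [colAnti_apply, map_sum, map_smul, smul_eq_mul, pair_act, pair_single,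
      Finsupp.finsetSum_apply, Finsupp.smul_apply, map_mul, sgn_conj, Finset.mul_sum]
    refine Finset.sum_nbij' (fun g => g⁻¹) (fun g => g⁻¹) (fun g hg => inv_mem_colGroup hg)
      (fun g hg => inv_mem_colGroup hg) (fun g _ => inv_inv g) (fun g _ => inv_inv g) fun g _ => ?_
    rw [sgn_inv]; ring

lemma eq_zero_of_pair_self {v : Words α} (h : pair v v = 0) : v = 0 := by
  rw [pair_apply, Finsupp.sum] at h
  have hre : ∑ r ∈ v.support, Complex.normSq (v r) = 0 := by
    have : ((∑ r ∈ v.support, Complex.normSq (v r) : ℝ) : ℂ) = 0 := by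
      push_cast
      rw [← h]
      exact Finset.sum_congr rfl fun r _ => Complex.normSq_eq_conj_mul_self.trans (mul_comm _ _)
    exact_mod_cast this
  ext r
  by_contra hr
  have := (Finset.sum_eq_zero_iff_of_nonneg fun r _ => Complex.normSq_nonneg _).1 hre r
    (Finsupp.mem_support_iff.2 hr)
  exact hr (Complex.normSq_eq_zero.1 this)

/-- Every word vector with the content of the shape maps into the line of the polytabloid. -/
lemma colAnti_mem {T : α ≃ lam.cells} {v : Words α}
    (hv : ∀ r ∈ v.support, ∀ k, #{a | r a < k} = #{a | row T a < k}) :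
    colAnti T v ∈ Submodule.span ℂ {poly T} := by
  rw [← v.sum_single, Finsupp.sum, map_sum]
  refine Submodule.sum_mem _ fun r hr => ?_
  rw [← mul_one (v r), ← smul_eq_mul, ← Finsupp.smul_single, map_smul]
  exact Submodule.smul_mem _ _ (colAnti_single_mem (hv r hr))

/-- The submodule theorem: a stable subspace of a Specht module is zero or everything. -/
theorem eq_bot_or_ge {T : α ≃ lam.cells} {W : Submodule ℂ (Words α)}
    (hW : W ≤ (specht T).toSubmodule) (hact : ∀ g, ∀ v ∈ W, act α g v ∈ W) :
    W = ⊥ ∨ (specht T).toSubmodule ≤ W := by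
  by_cases h : ∃ v ∈ W, colAnti T v ≠ 0
  · right
    obtain ⟨v, hv, hne⟩ := h
    obtain ⟨c, hc⟩ := Submodule.mem_span_singleton.1
      (colAnti_mem fun r hr k => content_of_mem (hW hv) hr k)
    have hmem : colAnti T v ∈ W := by
      rw [colAnti_apply]
      exact Submodule.sum_mem _ fun g _ => Submodule.smul_mem _ _ (hact g v hv)
    have hc0 : c ≠ 0 := by rintro rfl; exact hne (by simpa using hc.symm)
    have hp : poly T ∈ W := by
      rw [← hc] at hmem
      simpa [hc0] using Submodule.smul_mem _ c⁻¹ hmem
    exact Submodule.span_le.2 (by rintro _ ⟨g, rfl⟩; exact hact g _ hp)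
  · left
    simp only [not_exists, not_and, not_not] at h
    refine (Submodule.eq_bot_iff _).2 fun v hv => eq_zero_of_pair_self ?_
    have horth : (specht T).toSubmodule ≤ LinearMap.ker (pair v) := by
      refine Submodule.span_le.2 ?_
      rintro _ ⟨g, rfl⟩
      show pair v (act α g (poly T)) = 0
      rw [pair_act, poly, pair_colAnti, h _ (hact _ v hv)]
      simp [pair, Finsupp.linearCombination_apply]
    exact horth (hW hv)

/-- Specht modules are irreducible. -/
theorem spechtRep_irreducible (T : α ≃ lam.cells) :
    Representation.IsIrreducible (k := ℂ) (G := Perm α) (V := (specht T).toSubmodule) (spechtRep T) := by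
  have hne : Nontrivial (Subrepresentation (spechtRep T)) := by
    refine ⟨⟨⊥, ⊤, fun e => ?_⟩⟩
    have h := congrArg (fun x => x.toSubmodule) e
    have : (⟨poly T, poly_mem T⟩ : (specht T).toSubmodule) ∈
        (⊥ : Submodule ℂ (specht T).toSubmodule) := by
      have h' : (⊥ : Submodule ℂ (specht T).toSubmodule) = ⊤ := h
      rw [h']; trivial
    exact poly_ne_zero T (congrArg Subtype.val ((Submodule.mem_bot ℂ).1 this))
  refine ⟨fun W => ?_⟩
  rcases eq_bot_or_ge (Submodule.map_subtype_le _ W.toSubmodule) (fun g v hv => by
      obtain ⟨w, hw, rfl⟩ := Submodule.mem_map.1 hv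
      exact Submodule.mem_map.2 ⟨spechtRep T g w, W.apply_mem_toSubmodule g hw, rfl⟩) with h | h
  · left
    apply Subrepresentation.toSubmodule_injective
    exact Submodule.map_injective_of_injective (Submodule.injective_subtype _)
      (h.trans (Submodule.map_bot _).symm)
  · right
    apply Subrepresentation.toSubmodule_injective
    refine eq_top_iff.2 fun w _ => ?_
    obtain ⟨u, hu, he⟩ := Submodule.mem_map.1 (h w.2)
    rwa [Subtype.ext he] at hu

/-- A nonzero intertwiner into a Specht module forces dominance. -/
theorem card_lt_le_of_intertwining {T : α ≃ lam.cells} {U : α ≃ mu.cells}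
    (f : (spechtRep T).IntertwiningMap (spechtRep U)) (hf : f ≠ 0) (k : ℕ) :
    #{a | row U a < k} ≤ #{a | row T a < k} := by
  have hinj : ∀ x, f x = 0 → x = 0 := by
    rcases eq_bot_or_ge (Submodule.map_subtype_le _ (LinearMap.ker f.toLinearMap)) (fun g v hv => by
        obtain ⟨w, hw, rfl⟩ := Submodule.mem_map.1 hv
        refine Submodule.mem_map.2 ⟨spechtRep T g w, ?_, rfl⟩
        show f (spechtRep T g w) = 0
        rw [Representation.IntertwiningMap.isIntertwining _ _ f g w, show f w = 0 from hw, map_zero]) with h | h
    · intro x hx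
      have : (x : Words α) ∈ Submodule.map (specht T).toSubmodule.subtype
          (LinearMap.ker f.toLinearMap) := Submodule.mem_map.2 ⟨x, hx, rfl⟩
      rw [h, Submodule.mem_bot] at this
      exact Subtype.ext this
    · refine absurd (Representation.IntertwiningMap.ext (LinearMap.ext fun x => ?_)) hf
      obtain ⟨u, hu, he⟩ := Submodule.mem_map.1 (h x.2)
      rw [← Subtype.ext (p := (· ∈ (specht T).toSubmodule)) he]
      exact hu
  set e : (specht T).toSubmodule := ⟨poly T, poly_mem T⟩
  have hne : (f e : Words α) ≠ 0 := fun h => poly_ne_zero T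
    (congrArg Subtype.val (hinj e (Subtype.ext h)))
  have hcol : colAnti T (f e : Words α) = ((colGroup T).card : ℂ) • (f e : Words α) := by
    rw [colAnti_apply]
    calc ∑ g ∈ colGroup T, sgn g • act α g (f e : Words α)
        = ∑ g ∈ colGroup T, (f e : Words α) := Finset.sum_congr rfl fun g hg => ?_
      _ = _ := by rw [Finset.sum_const, ← Nat.cast_smul_eq_nsmul ℂ]
    have h1 : spechtRep T g e = sgn g • e := Subtype.ext (act_poly hg)
    have h2 := Representation.IntertwiningMap.isIntertwining _ _ f g e
    rw [h1, map_smul] at h2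
    have h3 := congrArg Subtype.val h2
    rw [show ((spechtRep U g (f e) : (specht U).toSubmodule) : Words α)
      = act α g (f e : Words α) from rfl] at h3
    rw [← h3]
    simp [smul_smul, sgn_mul_self]
  by_contra hlt
  have hz : colAnti T (f e : Words α) = 0 := by
    rw [← (f e : Words α).sum_single, Finsupp.sum, map_sum]
    refine Finset.sum_eq_zero fun r hr => ?_
    have hnot : ¬ ColDistinct T r := fun hd => hlt ((content_of_mem (f e).2 hr k).ge.trans
      (card_lt_le hd k))
    simp only [ColDistinct, not_forall] at hnot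
    obtain ⟨a, b, hc, hab, hne'⟩ := hnot
    rw [← mul_one ((f e : Words α) r), ← smul_eq_mul, ← Finsupp.smul_single, map_smul,
      colAnti_single_eq_zero hne' hc hab, smul_zero]
  rw [hcol, smul_eq_zero] at hz
  exact hne (hz.resolve_left (Nat.cast_ne_zero.2
    (Finset.card_ne_zero_of_mem (one_mem_colGroup T))))

end Vale.Agent.P197.Specht
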